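import Vale.Agent.P166.Basic

/-!
The chain of subgroups of `O(N)` fixing the first coordinate axes up to sign, reflections in it,
and invariance facts for probability measures on these compact groups.
-/

open MeasureTheory Matrix Finset Function
open scoped BigOperators

namespace Vale.Agent.P166

variable {N : ℕ}

instance secondCountableON (N : ℕ) : SecondCountableTopology (ON N) :=
  haveI : SecondCountableTopology (Matrix (Fin N) (Fin N) ℝ) :=
    inferInstanceAs (SecondCountableTopology (Fin N → Fin N → ℝ))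
  TopologicalSpace.Subtype.secondCountableTopology _

lemma continuous_entry (i j : Fin N) : Continuous fun h : ON N => h.1 i j :=
  (continuous_apply j).comp ((continuous_apply i).comp continuous_subtype_val)

lemma col_dot (h : ON N) (i j : Fin N) :
    ∑ l, h.1 l i * h.1 l j = if i = j then 1 else 0 := by
  have := congrFun (congrFun (transpose_mul_self h) i) j
  simpa [Matrix.mul_apply, Matrix.one_apply] using this

lemma row_dot (h : ON N) (i j : Fin N) :
    ∑ l, h.1 i l * h.1 j l = if i = j then 1 else 0 := by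
  have := congrFun (congrFun (Matrix.mem_unitaryGroup_iff.1 h.2) i) j
  simpa [Matrix.mul_apply, star_eq_conjTranspose, Matrix.one_apply] using this

lemma inv_apply' (h : ON N) (i j : Fin N) : (h⁻¹).1 i j = h.1 j i := by
  simp [Matrix.UnitaryGroup.inv_val]

/-- Orthogonal matrices whose first `k` columns are signed standard basis vectors. -/
def blockGroup (N k : ℕ) : Subgroup (ON N) where
  carrier := {h | ∀ i j : Fin N, j.1 < k → i ≠ j → h.1 i j = 0}
  one_mem' i j _ hij := by simp [hij]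
  mul_mem' := by
    intro g h hg hh i j hj hij
    show (g.1 * h.1) i j = 0
    rw [Matrix.mul_apply]
    refine Finset.sum_eq_zero fun l _ => ?_
    by_cases hl : l = j
    · rw [hl, hg i j hj hij, zero_mul]
    · rw [hh l j hj hl, mul_zero]
  inv_mem' := by
    intro h hh i j hj hij
    rw [inv_apply']
    have hc : h.1 j j * h.1 j j = 1 := by
      have := col_dot h j j
      rwa [if_pos rfl, Finset.sum_eq_single j
        (fun l _ hl => by rw [hh l j hj hl, mul_zero]) (by simp)] at this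
    have hr := row_dot h j j
    rw [if_pos rfl, ← Finset.add_sum_erase _ _ (Finset.mem_univ j), hc,
      add_eq_left, Finset.sum_eq_zero_iff_of_nonneg (fun l _ => mul_self_nonneg _)] at hr
    exact mul_self_eq_zero.1 (hr i (Finset.mem_erase.2 ⟨hij, Finset.mem_univ i⟩))

lemma blockGroup_anti {k k' : ℕ} (h : k ≤ k') : blockGroup N k' ≤ blockGroup N k :=
  fun _ hg i j hj hij => hg i j (lt_of_lt_of_le hj h) hij

lemma blockGroup_zero (g : ON N) : g ∈ blockGroup N 0 := fun _ _ hj => absurd hj (Nat.not_lt_zero _)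

lemma apply_eq_zero {k : ℕ} {h : ON N} (hh : h ∈ blockGroup N k) {i j : Fin N} (hj : j.1 < k)
    (hij : i ≠ j) : h.1 j i = 0 := by
  have := (blockGroup N k).inv_mem hh i j hj hij
  rwa [inv_apply'] at this

lemma isClosed_blockGroup (k : ℕ) : IsClosed (blockGroup N k : Set (ON N)) := by
  have e : (blockGroup N k : Set (ON N)) =
      ⋂ i : Fin N, ⋂ j : Fin N, {h : ON N | j.1 < k → i ≠ j → h.1 i j = 0} := by
    ext h
    simp only [SetLike.mem_coe, Set.mem_iInter]
    exact Iff.rfl
  rw [e]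
  refine isClosed_iInter fun i => isClosed_iInter fun j => ?_
  by_cases hj : j.1 < k
  · by_cases hij : i = j
    · simp [hij]
    · simp only [hj, ne_eq, hij, not_false_eq_true, forall_const]
      exact isClosed_eq (continuous_entry i j) continuous_const
  · simp [hj]

instance compactSpaceBlock (k : ℕ) : CompactSpace (blockGroup N k) :=
  isCompact_iff_compactSpace.1 (isClosed_blockGroup k).isCompact

/-- Haar probability measure on a block group. -/
noncomputable def blockHaar (N k : ℕ) : Measure (blockGroup N k) := Measure.haarMeasure ⊤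

instance blockHaar_prob (k : ℕ) : IsProbabilityMeasure (blockHaar N k) :=
  ⟨by simpa [blockHaar] using Measure.haarMeasure_self (G := blockGroup N k) (K₀ := ⊤)⟩

instance blockHaar_left (k : ℕ) : (blockHaar N k).IsMulLeftInvariant := by
  unfold blockHaar; infer_instance

lemma integrable_cont {X : Type*} [TopologicalSpace X] [CompactSpace X] [MeasurableSpace X]
    [OpensMeasurableSpace X] (μ : Measure X) [IsFiniteMeasure μ] {f : X → ℝ} (hf : Continuous f) :
    Integrable f μ :=
  hf.integrable_of_hasCompactSupport (HasCompactSupport.of_compactSpace _)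

/-- Left averaging against one invariant measure equals right averaging against another. -/
lemma integral_twist (ν ν' : Measure (ON N)) [IsProbabilityMeasure ν] [IsProbabilityMeasure ν']
    (hν : ∀ g : ON N, ν.map (fun U => g * U) = ν) (hν' : ∀ g : ON N, ν'.map (fun U => g * U) = ν')
    (f : ON N → ℝ) (hf : Continuous f) : ∫ U, f U ∂ν = ∫ U, f U⁻¹ ∂ν' := by
  have hl : ∀ (ρ : Measure (ON N)), (∀ g : ON N, ρ.map (fun U => g * U) = ρ) →
      ∀ (φ : ON N → ℝ), Continuous φ → ∀ g : ON N, ∫ U, φ (g * U) ∂ρ = ∫ U, φ U ∂ρ := by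
    intro ρ hρ φ hφ g
    conv_rhs => rw [← hρ g]
    exact (integral_map (φ := fun U : ON N => g * U)
      (continuous_const.mul continuous_id).measurable.aemeasurable hφ.aestronglyMeasurable).symm
  have h1 : ∀ V : ON N, ∫ U, f (V⁻¹ * U) ∂ν = ∫ U, f U ∂ν := fun V => hl ν hν f hf V⁻¹
  have h2 : ∀ U : ON N, ∫ V, f (V⁻¹ * U) ∂ν' = ∫ V, f V⁻¹ ∂ν' := fun U => by
    have := hl ν' hν' (fun W => f W⁻¹) (hf.comp continuous_inv) U⁻¹
    simpa [_root_.mul_inv_rev, inv_inv] using this
  calc ∫ U, f U ∂ν = ∫ V, (∫ U, f (V⁻¹ * U) ∂ν) ∂ν' := by simp [h1]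
    _ = ∫ U, (∫ V, f (V⁻¹ * U) ∂ν') ∂ν := integral_integral_swap
        (integrable_cont (ν'.prod ν) (f := Function.uncurry fun V U : ON N => f (V⁻¹ * U))
          (hf.comp (continuous_fst.inv.mul continuous_snd)))
    _ = _ := by simp [h2]

/-- Invariant probability measures on `O(N)` are unique and bi-invariant. -/
lemma integral_unique (ν ν' : Measure (ON N)) [IsProbabilityMeasure ν] [IsProbabilityMeasure ν']
    (hν : ∀ g : ON N, ν.map (fun U => g * U) = ν) (hν' : ∀ g : ON N, ν'.map (fun U => g * U) = ν')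
    (f : ON N → ℝ) (hf : Continuous f) : ∫ U, f U ∂ν = ∫ U, f U ∂ν' := by
  rw [integral_twist ν ν' hν hν' f hf, ← integral_twist ν' ν' hν' hν' f hf]

lemma integral_mul_right (ν : Measure (ON N)) [IsProbabilityMeasure ν]
    (hν : ∀ g : ON N, ν.map (fun U => g * U) = ν) (f : ON N → ℝ) (hf : Continuous f) (g : ON N) :
    ∫ U, f (U * g) ∂ν = ∫ U, f U ∂ν := by
  rw [integral_twist ν ν hν hν (fun U => f (U * g)) (hf.comp (continuous_id.mul continuous_const)),
    integral_twist ν ν hν hν f hf]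
  have e : (fun U : ON N => f (U⁻¹ * g)) = fun U => (fun W : ON N => f W⁻¹) (g⁻¹ * U) := by
    funext U; simp [_root_.mul_inv_rev]
  rw [e]
  conv_rhs => rw [← hν g⁻¹]
  exact (integral_map (φ := fun U : ON N => g⁻¹ * U)
    (continuous_const.mul continuous_id).measurable.aemeasurable
    (hf.comp continuous_inv).aestronglyMeasurable).symm

/-- The inner product with a column vector. -/
lemma sum_mulVec_sq (h : ON N) (z : Fin N → ℝ) : ∑ i, ((h.1 *ᵥ z) i) ^ 2 = ∑ i, z i ^ 2 := by
  have : (h.1 *ᵥ z) ⬝ᵥ (h.1 *ᵥ z) = z ⬝ᵥ z := by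
    rw [dotProduct_mulVec, ← mulVec_transpose, mulVec_mulVec, transpose_mul_self, one_mulVec]
  simpa [dotProduct, ← sq] using this

lemma sum_transpose_mulVec_sq (h : ON N) (z : Fin N → ℝ) :
    ∑ i, ((h.1ᵀ *ᵥ z) i) ^ 2 = ∑ i, z i ^ 2 := by
  have e : (h⁻¹).1 = h.1ᵀ := by ext i j; exact inv_apply' h i j
  rw [← e]; exact sum_mulVec_sq h⁻¹ z

/-- The reflection in the hyperplane orthogonal to a unit vector. -/
noncomputable def refl (a : Fin N → ℝ) (ha : a ⬝ᵥ a = 1) : ON N :=
  ⟨1 - (2 : ℝ) • Matrix.vecMulVec a a, by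
    rw [Matrix.mem_unitaryGroup_iff, star_eq_conjTranspose, conjTranspose_eq_transpose_of_trivial,
      transpose_sub, transpose_one, transpose_smul, transpose_vecMulVec,
      sub_mul, mul_sub, one_mul, one_mul, mul_sub, mul_one, Matrix.smul_mul, Matrix.mul_smul,
      vecMulVec_mul_vecMulVec, ha, one_smul]
    module⟩

lemma refl_mulVec (a : Fin N → ℝ) (ha : a ⬝ᵥ a = 1) (z : Fin N → ℝ) :
    (refl a ha).1 *ᵥ z = z - (2 * (a ⬝ᵥ z)) • a := by
  show (1 - (2 : ℝ) • Matrix.vecMulVec a a) *ᵥ z = _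
  rw [sub_mulVec, one_mulVec, smul_mulVec, vecMulVec_mulVec, op_smul_eq_smul, smul_smul]

lemma refl_apply (a : Fin N → ℝ) (ha : a ⬝ᵥ a = 1) (i j : Fin N) :
    (refl a ha).1 i j = (if i = j then 1 else 0) - 2 * (a i * a j) := by
  show (1 - (2 : ℝ) • Matrix.vecMulVec a a) i j = _
  simp [Matrix.vecMulVec_apply, Matrix.one_apply]

lemma refl_mul_self (a : Fin N → ℝ) (ha : a ⬝ᵥ a = 1) : refl a ha * refl a ha = 1 := by
  have e : (refl a ha)⁻¹ = refl a ha := by
    apply Subtype.ext
    ext i j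
    rw [inv_apply', refl_apply, refl_apply, mul_comm (a j), if_congr eq_comm rfl rfl]
  calc refl a ha * refl a ha = refl a ha * (refl a ha)⁻¹ := by rw [e]
    _ = 1 := mul_inv_cancel _

lemma refl_mem (a : Fin N → ℝ) (ha : a ⬝ᵥ a = 1) {k : ℕ} (hk : ∀ j : Fin N, j.1 < k → a j = 0) :
    refl a ha ∈ blockGroup N k := fun i j hj hij => by
  simp [refl_apply, hk j hj, hij]

/-- A reflection moving the `k`-th axis to a given unit vector of the block, up to sign, along a
direction controlled by these two vectors. -/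
lemma exists_refl (k : Fin N) (u : Fin N → ℝ) (hu : u ⬝ᵥ u = 1)
    (hs : ∀ j : Fin N, j.1 < k.1 → u j = 0) :
    ∃ a : Fin N → ℝ, ∃ ha : a ⬝ᵥ a = 1, (∀ j : Fin N, j.1 < k.1 → a j = 0) ∧
      (∃ σ : ℝ, σ ^ 2 = 1 ∧ ∀ i, (refl a ha).1 i k = σ * u i) ∧
      ∀ z : Fin N → ℝ, (a ⬝ᵥ z) ^ 2 ≤ z k ^ 2 + (u ⬝ᵥ z) ^ 2 := by
  obtain ⟨σ, hσ, hneg⟩ : ∃ σ : ℝ, σ ^ 2 = 1 ∧ σ * u k ≤ 0 := by
    rcases le_total (u k) 0 with h | h
    · exact ⟨1, by norm_num, by simpa using h⟩
    · exact ⟨-1, by norm_num, by simpa using h⟩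
  set e : Fin N → ℝ := Pi.single k 1 with he
  set b : Fin N → ℝ := e - σ • u with hb
  have hee : e ⬝ᵥ e = 1 := by simp [he]
  have heu : e ⬝ᵥ u = u k := by simp [he]
  have hue : u ⬝ᵥ e = u k := by rw [dotProduct_comm, heu]
  set n : ℝ := b ⬝ᵥ b with hn
  have hnval : n = 2 - 2 * (σ * u k) := by
    simp only [hn, hb, sub_dotProduct, dotProduct_sub, smul_dotProduct, dotProduct_smul, hee, hu,
      heu, hue, smul_eq_mul]
    linear_combination hσ
  have hn2 : 2 ≤ n := by rw [hnval]; linarith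
  set r := (Real.sqrt n)⁻¹ with hr
  have hr2 : r * r = n⁻¹ := by
    rw [hr, ← mul_inv, Real.mul_self_sqrt (by linarith)]
  have ha : (r • b) ⬝ᵥ (r • b) = 1 := by
    rw [smul_dotProduct, dotProduct_smul, smul_smul, hr2, ← hn, smul_eq_mul,
      inv_mul_cancel₀ (by linarith)]
  refine ⟨r • b, ha, fun j hj => ?_, ⟨σ, hσ, fun i => ?_⟩, fun z => ?_⟩
  · have : j ≠ k := fun h => by simp [h] at hj
    simp [hb, he, this, hs j hj]
  · have hbk : b k = 1 - σ * u k := by simp [hb, he]
    have hbi : b i = (if i = k then 1 else 0) - σ * u i := by simp [hb, he, Pi.single_apply]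
    have hnb : n = 2 * b k := by rw [hbk, hnval]; ring
    rw [refl_apply]
    simp only [Pi.smul_apply, smul_eq_mul]
    calc (if i = k then (1:ℝ) else 0) - 2 * (r * b i * (r * b k))
        = (if i = k then (1:ℝ) else 0) - (r * r) * n * b i := by rw [hnb]; ring
      _ = _ := by rw [hr2, inv_mul_cancel₀ (by linarith), one_mul, hbi]; ring
  · rw [smul_dotProduct, smul_eq_mul, mul_pow, sq r, hr2, inv_mul_le_iff₀ (by linarith)]
    have hz : b ⬝ᵥ z = z k - σ * (u ⬝ᵥ z) := by simp [hb, he, sub_dotProduct]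
    rw [hz]
    nlinarith [sq_nonneg (z k + σ * (u ⬝ᵥ z)), sq_nonneg (z k), sq_nonneg (u ⬝ᵥ z),
      mul_le_mul_of_nonneg_right hn2 (add_nonneg (sq_nonneg (z k)) (sq_nonneg (u ⬝ᵥ z)))]

end Vale.Agent.P166
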