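import Vale.Agent.P166.SelfAvg.Step
import Vale.Agent.P166.Main
import Mathlib.NumberTheory.Harmonic.Bounds

/-!
The variance bound for the pressure and the resulting self-averaging theorem.
-/

open MeasureTheory Matrix Finset Filter
open scoped BigOperators Topology

namespace Vale.Agent.P166

variable {N : ℕ}

lemma quad_gauge (l : Fin N → ℝ) (U g : ON N) (hg : g ∈ blockGroup N N) (s : Fin N → Bool) :
    quad l (U * g) s = quad l U (fun i => if g.1 i i = 1 then s i else !s i) := by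
  rw [quad_eq, quad_eq]
  have hv : g.1 *ᵥ spin s = spin (fun i => if g.1 i i = 1 then s i else !s i) := by
    funext i
    have h0 : ∀ j, j ≠ i → g.1 i j = 0 := fun j hj => hg i j j.2 hj.symm
    have h1 := row_dot g i i
    rw [if_pos rfl, Finset.sum_eq_single i (fun j _ hj => by rw [h0 j hj, zero_mul]) (by simp)] at h1
    rw [mulVec, dotProduct, Finset.sum_eq_single i (fun j _ hj => by rw [h0 j hj, zero_mul]) (by simp)]
    rcases mul_self_eq_one_iff.1 h1 with h | h
    · rw [h, one_mul]; simp [spin, h]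
    · rw [h]; cases hs : s i <;> norm_num [spin, h, hs]
  show ∑ i, l i * (((U.1 * g.1) *ᵥ spin s) i) ^ 2 = _
  rw [← mulVec_mulVec, hv]

lemma pressure_gauge (β : ℝ) (l : Fin N → ℝ) (U g : ON N) (hg : g ∈ blockGroup N N) :
    pressure β l (U * g) = pressure β l U := by
  set e : (Fin N → Bool) → (Fin N → Bool) :=
    fun s i => if g.1 i i = 1 then s i else !s i with he
  have hinv : Function.Involutive e := fun s => by
    funext i; simp only [he]; split_ifs <;> simp
  simp only [pressure, quad_gauge l U g hg]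
  congr 3
  exact Equiv.sum_comp (hinv.toPerm e) (fun s => Real.exp (β / 2 * quad l U s))

lemma step_scalar {Y p r t L : ℝ} (hY : 0 ≤ Y) (_hp : 0 ≤ p) (_hr : 0 ≤ r) (ht : 0 < t) :
    32 * ((1 + p) * (Y + r)) + 32 * L ^ 2 * (1 + p) ^ 2 ≤
      (48 * Y + 16 * t + 64 * L ^ 2) + (16 * Y + 16 * t + 64 * L ^ 2) * p ^ 2
        + (32 / t) * r ^ 2 := by
  have e : 32 / t * r ^ 2 = 32 * (r ^ 2 / t) := by ring
  have h1 : p * r ≤ (t * p ^ 2 + r ^ 2 / t) / 2 := by
    have h := mul_nonneg ht.le (sq_nonneg (p - r / t))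
    have e1 : t * (p - r / t) ^ 2 = t * p ^ 2 - 2 * (p * r) + r ^ 2 / t := by field_simp; ring
    linarith
  have h2 : r ≤ (t + r ^ 2 / t) / 2 := by
    have h := mul_nonneg ht.le (sq_nonneg (1 - r / t))
    have e1 : t * (1 - r / t) ^ 2 = t - 2 * r + r ^ 2 / t := by field_simp; ring
    linarith
  have h3 : Y * p ≤ Y * ((1 + p ^ 2) / 2) :=
    mul_le_mul_of_nonneg_left (by nlinarith [sq_nonneg (p - 1)]) hY
  have h5 : L ^ 2 * (1 + p) ^ 2 ≤ L ^ 2 * (2 * (1 + p ^ 2)) :=
    mul_le_mul_of_nonneg_left (by nlinarith [sq_nonneg (p - 1)]) (sq_nonneg L)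
  have e2 : 32 * ((1 + p) * (Y + r)) = 32 * Y + 32 * r + 32 * (Y * p) + 32 * (p * r) := by ring
  rw [e, e2]
  linarith

lemma field_sq_le {L : ℝ} (l : Fin N → ℝ) (hl : ∀ i, |l i| ≤ L) (U : ON N) (s : Fin N → Bool) :
    ∑ i, field l U s i ^ 2 ≤ L ^ 2 * N := by
  simp only [field, sum_transpose_mulVec_sq]
  rw [← sum_sq_mulVec U s, mul_sum]
  refine sum_le_sum fun i _ => ?_
  rw [mul_pow]
  exact mul_le_mul_of_nonneg_right (sq_le_sq.2 ((hl i).trans (le_abs_self L))) (sq_nonneg _)

lemma blockSq_spin (k : Fin N) (s : Fin N → Bool) : blockSq k.1 (spin s) = (N : ℝ) - k := by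
  simp only [blockSq, spin_sq]
  rw [← sum_filter, sum_const, nsmul_eq_mul, mul_one]
  have e : univ.filter (fun i : Fin N => k.1 ≤ i.1) = (Finset.Ici k : Finset (Fin N)) := by
    ext i
    rw [mem_filter, Finset.mem_Ici, Fin.le_def, and_iff_right (mem_univ i)]
  rw [e, Fin.card_Ici, Nat.cast_sub k.2.le]

attribute [local irreducible] field pressure avg weight blockHaar col stepBound

lemma moment_spin (k : Fin N) (s : Fin N → Bool) :
    ∫ h, ((col k (h : ON N) ⬝ᵥ spin s) ^ 2) ^ 2 ∂blockHaar N k.1 ≤ 3 := by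
  have hm := moment_four k (spin s)
  have hd : (k : ℝ) + 1 ≤ N := by exact_mod_cast k.2
  rw [blockSq_spin, mul_div_assoc, div_self (pow_ne_zero 2 (by linarith)), mul_one] at hm
  simpa only [← pow_mul] using hm

lemma moment_field {L : ℝ} (l : Fin N → ℝ) (hl : ∀ i, |l i| ≤ L) (k : Fin N) (U : ON N)
    (s : Fin N → Bool) :
    ∫ h, ((col k (h : ON N) ⬝ᵥ field l U s) ^ 2) ^ 2 ∂blockHaar N k.1 ≤
      3 * (L ^ 2 * N) ^ 2 / ((N : ℝ) - k) ^ 2 := by
  have hm := moment_four k (field l U s)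
  have h0 : 0 ≤ blockSq k.1 (field l U s) := sum_nonneg fun i _ => by split_ifs <;> positivity
  refine le_trans (by simpa only [← pow_mul] using hm) ?_
  exact div_le_div_of_nonneg_right (mul_le_mul_of_nonneg_left
    (pow_le_pow_left₀ h0 ((blockSq_le _ _).trans (field_sq_le l hl U s)) 2) (by norm_num))
    (sq_nonneg _)

/-- Average of the step bound over the random column. -/
lemma stepBound_integral_le {L : ℝ} (hL : 0 < L) (l : Fin N → ℝ) (hl : ∀ i, |l i| ≤ L)
    (k : Fin N) (U : ON N) (s : Fin N → Bool) :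
    ∫ h, stepBound L k l U s (h : ON N) ∂blockHaar N k.1 ≤
      96 * field l U s k ^ 2 + L ^ 2 * (256 + 160 * (N / ((N : ℝ) - k))) := by
  set η := blockHaar N k.1
  set Y := field l U s k ^ 2 with hY
  set d : ℝ := (N : ℝ) - k with hd
  have hkN : (k : ℝ) + 1 ≤ N := by exact_mod_cast k.2
  have hd0 : 0 < d := by rw [hd]; linarith
  have hN0 : (0 : ℝ) < N := by linarith [(Nat.cast_nonneg k.1 : (0:ℝ) ≤ k)]
  set t : ℝ := L ^ 2 * (N / d) with ht
  have ht0 : 0 < t := by positivity
  have hY0 : 0 ≤ Y := sq_nonneg _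
  have hA : Continuous fun h : blockGroup N k.1 => ((col k (h : ON N) ⬝ᵥ spin s) ^ 2) ^ 2 :=
    ((continuous_col_dot k _).pow 2).pow 2
  have hB : Continuous fun h : blockGroup N k.1 => ((col k (h : ON N) ⬝ᵥ field l U s) ^ 2) ^ 2 :=
    ((continuous_col_dot k _).pow 2).pow 2
  have hbound : Continuous fun h : blockGroup N k.1 => stepBound L k l U s (h : ON N) :=
    (continuous_stepBound L k l s).comp
      (continuous_subtype_val.prodMk (continuous_const (y := U)))
  have hpt : ∀ h : blockGroup N k.1, stepBound L k l U s (h : ON N) ≤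
      (48 * Y + 16 * t + 64 * L ^ 2)
      + (16 * Y + 16 * t + 64 * L ^ 2) * ((col k (h : ON N) ⬝ᵥ spin s) ^ 2) ^ 2
      + (32 / t) * ((col k (h : ON N) ⬝ᵥ field l U s) ^ 2) ^ 2 := fun h => by
    rw [stepBound, ← hY]
    exact step_scalar hY0 (sq_nonneg _) (sq_nonneg _) ht0
  have hint : ∀ {φ : blockGroup N k.1 → ℝ}, Continuous φ → Integrable φ η :=
    fun hφ => integrable_cont η hφ
  have hAB := (continuous_const (y := 48 * Y + 16 * t + 64 * L ^ 2)).fun_add
    ((continuous_const (y := 16 * Y + 16 * t + 64 * L ^ 2)).fun_mul hA)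
  refine (integral_mono (hint hbound)
    (hint (hAB.fun_add ((continuous_const (y := 32 / t)).fun_mul hB))) hpt).trans ?_
  rw [integral_add (hint hAB) ((hint hB).const_mul _),
    integral_add (integrable_const _) ((hint hA).const_mul _), integral_const, probReal_univ,
    one_smul, MeasureTheory.integral_const_mul, MeasureTheory.integral_const_mul]
  have i1 := mul_le_mul_of_nonneg_left (moment_spin k s)
    (show 0 ≤ 16 * Y + 16 * t + 64 * L ^ 2 by positivity)
  have i2 := mul_le_mul_of_nonneg_left (moment_field l hl k U s) (show 0 ≤ 32 / t by positivity)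
  have e2 : 32 / t * (3 * (L ^ 2 * N) ^ 2 / d ^ 2) = 96 * t := by
    rw [ht]; field_simp; ring
  rw [← hd, e2] at i2
  have e3 : L ^ 2 * (256 + 160 * (N / d)) = 256 * L ^ 2 + 160 * t := by rw [ht]; ring
  rw [e3]
  linarith

lemma harmonic_block : ∑ k : Fin N, (N : ℝ) / ((N : ℝ) - k) ≤ N * (1 + Real.log N) := by
  rw [Fin.sum_univ_eq_sum_range (fun k => (N : ℝ) / ((N : ℝ) - k)) N, ← Finset.sum_range_reflect]
  have e : ∀ j ∈ range N, (N : ℝ) / ((N : ℝ) - ((N - 1 - j : ℕ) : ℝ)) = N * ((j : ℝ) + 1)⁻¹ := by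
    intro j hj
    rw [mem_range] at hj
    rw [Nat.cast_sub (by omega), Nat.cast_sub (by omega), div_eq_mul_inv]
    push_cast
    congr 2
    ring
  rw [sum_congr rfl e, ← mul_sum]
  refine mul_le_mul_of_nonneg_left (le_trans (le_of_eq ?_) (harmonic_le_one_add_log N))
    (Nat.cast_nonneg N)
  simp [harmonic]

lemma sum_stepBound_le {L : ℝ} (hL : 0 < L) (l : Fin N → ℝ) (hl : ∀ i, |l i| ≤ L)
    (U : ON N) (s : Fin N → Bool) :
    ∑ k : Fin N, ∫ h, stepBound L k l U s (h : ON N) ∂blockHaar N k.1 ≤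
      352 * L ^ 2 * N + 160 * L ^ 2 * N * (1 + Real.log N) := by
  refine (sum_le_sum fun k _ => stepBound_integral_le hL l hl k U s).trans ?_
  rw [sum_add_distrib, ← mul_sum, ← mul_sum, sum_add_distrib, ← mul_sum, sum_const, card_univ,
    Fintype.card_fin, nsmul_eq_mul]
  have h1 := field_sq_le l hl U s
  have h2 := mul_le_mul_of_nonneg_left (harmonic_block (N := N)) (sq_nonneg L)
  linarith

/-- Weighted form of `sum_stepBound_le`. -/
lemma sum_gibbs_le (β : ℝ) {L : ℝ} (hL : 0 < L) (l : Fin N → ℝ) (hl : ∀ i, |l i| ≤ L)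
    (U : ON N) :
    ∑ k : Fin N, ∑ s, weight β l U s * ∫ h, stepBound L k l U s (h : ON N) ∂blockHaar N k.1 ≤
      352 * L ^ 2 * N + 160 * L ^ 2 * N * (1 + Real.log N) := by
  rw [Finset.sum_comm]
  simp only [← mul_sum]
  calc ∑ s, weight β l U s * ∑ k : Fin N, ∫ h, stepBound L k l U s (h : ON N) ∂blockHaar N k.1
      ≤ ∑ s, weight β l U s * (352 * L ^ 2 * N + 160 * L ^ 2 * N * (1 + Real.log N)) :=
        sum_le_sum fun s _ =>
          mul_le_mul_of_nonneg_left (sum_stepBound_le hL l hl U s) (weight_nonneg _ _ _ s)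
    _ = _ := by rw [← sum_mul, sum_weight, one_mul]

/-- **Self-averaging**: at every inverse temperature the variance of the pressure is
`O(log N / N)`. -/
theorem variance_le {β : ℝ} (hβ : 0 ≤ β) (l : Fin N → ℝ) {L : ℝ} (hL : 0 < L)
    (hl : ∀ i, |l i| ≤ L) (hN : 0 < N) (ν : Measure (ON N)) [IsProbabilityMeasure ν]
    (hν : ∀ g : ON N, ν.map (fun U => g * U) = ν) :
    ∫ U, (pressure β l U - ∫ V, pressure β l V ∂ν) ^ 2 ∂ν ≤
      256 * β ^ 2 * L ^ 2 * (1 + Real.log N) / N := by
  have hN0 : (0 : ℝ) < N := Nat.cast_pos.2 hN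
  rw [variance_eq ν hν (continuous_pressure β l) fun U g hg => pressure_gauge β l U g hg,
    ← Fin.sum_univ_eq_sum_range (fun k => ∫ U, (avg (k + 1) (pressure β l) U
      - avg k (pressure β l) U) ^ 2 ∂ν) N]
  set c := 2 * (β / (2 * (N:ℝ))) ^ 2 with hc
  set B : ℝ := 352 * L ^ 2 * N + 160 * L ^ 2 * N * (1 + Real.log N) with hB
  have hS : ∀ k : Fin N, Continuous fun U : ON N => ∑ s, weight β l U s *
      ∫ h, stepBound L k l U s (h : ON N) ∂blockHaar N k.1 := fun k =>
    continuous_finsetSum _ fun s _ => (continuous_weight β l s).mul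
      (continuous_integral_right _ (F := fun U (h : blockGroup N k.1) =>
          stepBound L k l U s (h : ON N))
        ((continuous_stepBound L k l s).comp
          ((continuous_subtype_val.comp continuous_snd).prodMk continuous_fst)))
  refine (sum_le_sum fun k _ => increment_le ν hν hβ l hl k).trans ?_
  rw [← mul_sum, ← integral_finsetSum _ fun k _ => integrable_cont ν (hS k)]
  refine (mul_le_mul_of_nonneg_left (integral_mono (integrable_cont ν
    (continuous_finsetSum _ fun k _ => hS k)) (integrable_const B) fun U => ?_)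
    (by positivity)).trans ?_
  · exact sum_gibbs_le β hL l hl U
  rw [integral_const, probReal_univ, one_smul]
  have hlog : 0 ≤ Real.log N := Real.log_nonneg (Nat.one_le_cast.2 hN)
  have e : c * B = β ^ 2 * L ^ 2 * (176 + 80 * (1 + Real.log N)) / N := by
    rw [hc, hB]; field_simp; ring
  rw [e]
  refine div_le_div_of_nonneg_right ?_ hN0.le
  nlinarith [mul_nonneg (mul_nonneg (sq_nonneg β) (sq_nonneg L)) hlog]

/-- The pressure converges in mean square to numbers depending only on `β` and `μ`. -/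
theorem selfAveraging {β : ℝ} (hβ : 0 ≤ β) (μ : Measure ℝ) [IsProbabilityMeasure μ] (a b : ℝ)
    (hedge : ∀ η > (0 : ℝ), 0 < μ (Set.Ioi (b - η))) :
    ∃ m : ℕ → ℝ, ∀ (l : (N : ℕ) → Fin N → ℝ),
      (∀ f : ℝ → ℝ, Continuous f → (∃ C, ∀ z, |f z| ≤ C) →
        Tendsto (fun N : ℕ => (∑ i, f (l N i)) / (N : ℝ)) atTop (𝓝 (∫ z, f z ∂μ))) →
      (∀ η > (0 : ℝ), ∀ᶠ N in atTop, ∀ i, a - η ≤ l N i ∧ l N i ≤ b + η) →
      ∀ (ν : (N : ℕ) → Measure (ON N)), (∀ N, IsProbabilityMeasure (ν N)) →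
      (∀ N, ∀ g : ON N, (ν N).map (fun U => g * U) = ν N) →
      Tendsto (fun N => ∫ U, (pressure β (l N) U - m N) ^ 2 ∂ν N) atTop (𝓝 0) := by
  classical
  by_cases hex : ∃ l0 : (N : ℕ) → Fin N → ℝ,
      (∀ f : ℝ → ℝ, Continuous f → (∃ C, ∀ z, |f z| ≤ C) →
        Tendsto (fun N : ℕ => (∑ i, f (l0 N i)) / (N : ℝ)) atTop (𝓝 (∫ z, f z ∂μ))) ∧
      (∀ η > (0 : ℝ), ∀ᶠ N in atTop, ∀ i, a - η ≤ l0 N i ∧ l0 N i ≤ b + η)
  swap
  · exact ⟨fun _ => 0, fun l h1 h2 => absurd ⟨l, h1, h2⟩ hex⟩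
  obtain ⟨l0, h01, h02⟩ := hex
  refine ⟨fun N => ∫ U, pressure β (l0 N) U ∂(Measure.haarMeasure ⊤ : Measure (ON N)),
    fun l h1 h2 ν hp hν => ?_⟩
  set m := fun N => ∫ U, pressure β (l0 N) U ∂(Measure.haarMeasure ⊤ : Measure (ON N)) with hm
  set L := max |a| |b| + 1 with hL
  have hL0 : 0 < L := by positivity
  have hlL : ∀ᶠ N in atTop, ∀ i, |l N i| ≤ L := (h2 1 one_pos).mono fun N h i => by
    rw [abs_le]
    exact ⟨by linarith [(h i).1, neg_abs_le a, le_max_left |a| |b|],
      by linarith [(h i).2, le_abs_self b, le_max_right |a| |b|]⟩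
  have hmeq : ∀ N, m N = ∫ U, pressure β (l0 N) U ∂ν N := by
    intro N
    have := hp N
    have : IsProbabilityMeasure (Measure.haarMeasure ⊤ : Measure (ON N)) :=
      ⟨by simpa using Measure.haarMeasure_self (G := ON N) (K₀ := ⊤)⟩
    exact integral_unique _ (ν N) (fun g => map_mul_left_eq_self _ g) (hν N) _
      (continuous_pressure β (l0 N))
  have hdiff : Tendsto (fun N => (∫ U, pressure β (l N) U ∂ν N) - m N) atTop (𝓝 0) := by
    rw [Metric.tendsto_nhds]
    intro ε hε
    refine (universality hβ μ a b l l0 h1 h01 h2 h02 hedge ν hp hν (ε / 2) (half_pos hε)).mono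
      fun N hN => ?_
    have := hN id LipschitzWith.id
    rw [Real.dist_0_eq_abs, hmeq]
    simp only [id] at this
    linarith
  have hvar : Tendsto (fun N : ℕ => 256 * β ^ 2 * L ^ 2 * (1 + Real.log N) / N) atTop (𝓝 0) := by
    have h0 : Tendsto (fun N : ℕ => Real.log N / N) atTop (𝓝 0) :=
      Real.isLittleO_log_id_atTop.tendsto_div_nhds_zero.comp tendsto_natCast_atTop_atTop
    have h := ((tendsto_const_nhds (x := (1:ℝ))).div_atTop
      (tendsto_natCast_atTop_atTop (R := ℝ))).add h0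
    rw [add_zero] at h
    have h' := h.const_mul (256 * β ^ 2 * L ^ 2)
    rw [mul_zero] at h'
    exact h'.congr fun N => by ring
  have hsum := hvar.add (hdiff.pow 2)
  rw [show (0 : ℝ) + 0 ^ 2 = 0 by norm_num] at hsum
  refine tendsto_of_tendsto_of_tendsto_of_le_of_le' tendsto_const_nhds hsum
    (Eventually.of_forall fun N => integral_nonneg fun U => sq_nonneg _) ?_
  filter_upwards [hlL, eventually_gt_atTop 0] with N hN hN0
  have := hp N
  set E := ∫ U, pressure β (l N) U ∂ν N with hE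
  have hc := continuous_pressure β (l N)
  have hsplit : ∫ U, (pressure β (l N) U - m N) ^ 2 ∂ν N
      = (∫ U, (pressure β (l N) U - E) ^ 2 ∂ν N) + (E - m N) ^ 2 := by
    simp_rw [show ∀ U, (pressure β (l N) U - m N) ^ 2 = (pressure β (l N) U - E) ^ 2
      + ((2 * (E - m N)) * pressure β (l N) U + ((E - m N) ^ 2 - 2 * (E - m N) * E))
      from fun U => by ring]
    have i1 : Integrable (fun U => (pressure β (l N) U - E) ^ 2) (ν N) :=
      integrable_cont _ ((hc.fun_sub continuous_const).fun_pow 2)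
    have i2 : Integrable (fun U => (2 * (E - m N)) * pressure β (l N) U) (ν N) :=
      (integrable_cont _ hc).const_mul _
    have i3 : Integrable (fun U => (2 * (E - m N)) * pressure β (l N) U
        + ((E - m N) ^ 2 - 2 * (E - m N) * E)) (ν N) :=
      integrable_cont _ ((continuous_const.fun_mul hc).fun_add continuous_const)
    rw [integral_add i1 i3, integral_add i2 (integrable_const _),
      MeasureTheory.integral_const_mul, integral_const, probReal_univ, one_smul, ← hE]
    ring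
  rw [hsplit]
  exact add_le_add (variance_le hβ (l N) hL0 hN hN0 (ν N) (hν N)) le_rfl

end Vale.Agent.P166
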