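import Vale.Agent.P166.SelfAvg.Group

/-!
Averages over the block groups: the variance decomposition and fourth moments of a column.
-/

open MeasureTheory Matrix Finset Function
open scoped BigOperators

namespace Vale.Agent.P166

variable {N : ℕ}

/-- Average of `f` over the right cosets of a block group. -/
noncomputable def avg (k : ℕ) (f : ON N → ℝ) (U : ON N) : ℝ :=
  ∫ h : blockGroup N k, f (U * (h : ON N)) ∂blockHaar N k

lemma continuous_avg (k : ℕ) {f : ON N → ℝ} (hf : Continuous f) : Continuous (avg k f) := by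
  have hc : Continuous (uncurry fun (U : ON N) (h : blockGroup N k) => f (U * (h : ON N))) :=
    hf.comp (continuous_fst.mul (continuous_subtype_val.comp continuous_snd))
  have := continuous_parametric_integral_of_continuous (μ := blockHaar N k) hc
    (s := Set.univ) isCompact_univ
  unfold avg
  simpa using this

lemma avg_mul (k : ℕ) (f : ON N → ℝ) (U : ON N) {g : ON N} (hg : g ∈ blockGroup N k) :
    avg k f (U * g) = avg k f U := by
  unfold avg
  conv_rhs => rw [← integral_mul_left_eq_self
    (fun h : blockGroup N k => f (U * (h : ON N))) ⟨g, hg⟩]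
  simp [mul_assoc]

variable (ν : Measure (ON N)) [IsProbabilityMeasure ν]

lemma integral_avg_mul (hν : ∀ g : ON N, ν.map (fun U => g * U) = ν) (k : ℕ) {f φ : ON N → ℝ}
    (hf : Continuous f) (hφ : Continuous φ)
    (hinv : ∀ U, ∀ g ∈ blockGroup N k, φ (U * g) = φ U) :
    ∫ U, avg k f U * φ U ∂ν = ∫ U, f U * φ U ∂ν := by
  have h1 : ∀ h : blockGroup N k, ∫ U, f (U * (h : ON N)) * φ U ∂ν = ∫ U, f U * φ U ∂ν := by
    intro h
    rw [← integral_mul_right ν hν (fun U => f U * φ U) (hf.mul hφ) (h : ON N)]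
    simp [hinv _ _ h.2]
  calc ∫ U, avg k f U * φ U ∂ν
      = ∫ U, (∫ h : blockGroup N k, f (U * (h : ON N)) * φ U ∂blockHaar N k) ∂ν := by
        simp only [avg, ← MeasureTheory.integral_mul_const]
    _ = ∫ h : blockGroup N k, (∫ U, f (U * (h : ON N)) * φ U ∂ν) ∂blockHaar N k :=
        integral_integral_swap (integrable_cont _
          (f := uncurry fun (U : ON N) (h : blockGroup N k) => f (U * (h : ON N)) * φ U)
          ((hf.comp (continuous_fst.mul (continuous_subtype_val.comp continuous_snd))).mul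
            (hφ.comp continuous_fst)))
    _ = _ := by simp [h1]

lemma avg_eq_self_top {f : ON N → ℝ} (hgauge : ∀ U, ∀ g ∈ blockGroup N N, f (U * g) = f U) :
    avg N f = f := by
  funext U
  simp [avg, fun h : blockGroup N N => hgauge U _ h.2]

lemma avg_zero_eq (hν : ∀ g : ON N, ν.map (fun U => g * U) = ν) {f : ON N → ℝ}
    (hf : Continuous f) (U : ON N) : avg 0 f U = ∫ V, f V ∂ν := by
  have hc : ∀ V, avg 0 f V = avg 0 f U := fun V => by
    rw [← avg_mul 0 f U (blockGroup_zero (U⁻¹ * V)), mul_inv_cancel_left]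
  have := integral_avg_mul ν hν 0 hf (φ := fun _ => 1) continuous_const (fun _ _ _ => rfl)
  simpa [hc] using this

/-- The variance is the sum of the squared increments. -/
lemma variance_eq (hν : ∀ g : ON N, ν.map (fun U => g * U) = ν) {f : ON N → ℝ}
    (hf : Continuous f) (hgauge : ∀ U, ∀ g ∈ blockGroup N N, f (U * g) = f U) :
    ∫ U, (f U - ∫ V, f V ∂ν) ^ 2 ∂ν =
      ∑ k ∈ range N, ∫ U, (avg (k + 1) f U - avg k f U) ^ 2 ∂ν := by
  have hint : ∀ {φ : ON N → ℝ}, Continuous φ → Integrable φ ν := fun hφ => integrable_cont ν hφ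
  have hsq : ∀ k, ∫ U, avg k f U * avg k f U ∂ν = ∫ U, f U * avg k f U ∂ν := fun k =>
    integral_avg_mul ν hν k hf (continuous_avg k hf) fun U g hg => avg_mul k f U hg
  have hstep : ∀ k, ∫ U, (avg (k + 1) f U - avg k f U) ^ 2 ∂ν =
      (∫ U, avg (k + 1) f U * avg (k + 1) f U ∂ν) - ∫ U, avg k f U * avg k f U ∂ν := by
    intro k
    have hx : ∫ U, avg (k + 1) f U * avg k f U ∂ν = ∫ U, avg k f U * avg k f U ∂ν := by
      rw [hsq k]
      exact integral_avg_mul ν hν (k + 1) hf (continuous_avg k hf)
        fun U g hg => avg_mul k f U (blockGroup_anti (Nat.le_succ k) hg)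
    have c1 := continuous_avg (k + 1) hf
    have c0 := continuous_avg k hf
    simp_rw [show ∀ U, (avg (k + 1) f U - avg k f U) ^ 2 = avg (k + 1) f U * avg (k + 1) f U
      - 2 * (avg (k + 1) f U * avg k f U) + avg k f U * avg k f U from fun U => by ring]
    rw [integral_add (hint ((c1.fun_mul c1).fun_sub (continuous_const.fun_mul (c1.fun_mul c0))))
        (hint (c0.fun_mul c0)),
      integral_sub (hint (c1.fun_mul c1)) ((hint (c1.fun_mul c0)).const_mul 2),
      MeasureTheory.integral_const_mul, hx]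
    ring
  simp_rw [hstep]
  rw [Finset.sum_range_sub (fun k => ∫ U, avg k f U * avg k f U ∂ν), avg_eq_self_top hgauge]
  simp only [avg_zero_eq ν hν hf, integral_const, probReal_univ, one_smul]
  simp_rw [show ∀ U, (f U - ∫ V, f V ∂ν) ^ 2
    = f U * f U - (2 * ∫ V, f V ∂ν) * f U + (∫ V, f V ∂ν) * (∫ V, f V ∂ν) from fun U => by ring]
  rw [integral_add (hint ((hf.fun_mul hf).fun_sub (continuous_const.fun_mul hf))) (integrable_const _),
    integral_sub (hint (hf.fun_mul hf)) ((hint hf).const_mul _), MeasureTheory.integral_const_mul,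
    integral_const, probReal_univ, one_smul]
  ring

/-- Squared norm of the block part of a vector. -/
def blockSq (k : ℕ) (z : Fin N → ℝ) : ℝ := ∑ i, if k ≤ i.1 then z i ^ 2 else 0

lemma blockSq_le (k : ℕ) (z : Fin N → ℝ) : blockSq k z ≤ ∑ i, z i ^ 2 :=
  sum_le_sum fun i _ => by split_ifs <;> nlinarith [sq_nonneg (z i)]

/-- The `k`-th column of an element of the block group. -/
def col (k : Fin N) (h : ON N) : Fin N → ℝ := fun i => h.1 i k

lemma continuous_col_dot (k : Fin N) (z : Fin N → ℝ) :
    Continuous fun h : blockGroup N k => col k (h : ON N) ⬝ᵥ z :=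
  continuous_finsetSum _ fun i _ =>
    ((continuous_entry i k).comp continuous_subtype_val).mul continuous_const

/-- Fourth moment of the projection of a random column on a vector. -/
lemma moment_four (k : Fin N) (z : Fin N → ℝ) :
    ∫ h, (col k (h : ON N) ⬝ᵥ z) ^ 4 ∂blockHaar N k ≤
      3 * blockSq k z ^ 2 / ((N : ℝ) - k) ^ 2 := by
  classical
  set η := blockHaar N k with hη
  set m : (Fin N → ℝ) → ℝ := fun z => ∫ h, (col k (h : ON N) ⬝ᵥ z) ^ 4 ∂η with hm
  set c := m (Pi.single k 1) with hc
  have hcol0 : ∀ (h : blockGroup N k) (i : Fin N), i.1 < k.1 → col k (h : ON N) i = 0 :=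
    fun h i hi => apply_eq_zero h.2 hi fun e => by simp [e] at hi
  -- invariance
  have hunit : ∀ u : Fin N → ℝ, u ⬝ᵥ u = 1 → (∀ j : Fin N, j.1 < k.1 → u j = 0) → m u = c := by
    intro u hu hs
    obtain ⟨a, ha, hak, ⟨σ, hσ, hcol⟩, -⟩ := exists_refl k u hu hs
    set R : blockGroup N k := ⟨refl a ha, refl_mem a ha hak⟩
    rw [hc, hm]
    simp only
    conv_rhs => rw [← integral_mul_left_eq_self
      (fun h : blockGroup N k => (col k (h : ON N) ⬝ᵥ Pi.single k 1) ^ 4) R]
    congr 1
    funext h
    have : col k ((R * h : blockGroup N k) : ON N) ⬝ᵥ Pi.single k 1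
        = σ * (col k (h : ON N) ⬝ᵥ u) := by
      rw [dotProduct_single, mul_one, dotProduct, mul_sum]
      show ((refl a ha).1 * (h : ON N).1) k k = _
      rw [Matrix.mul_apply]
      refine sum_congr rfl fun i _ => ?_
      have e : (refl a ha).1 k i = (refl a ha).1 i k := by
        rw [refl_apply, refl_apply, mul_comm (a k), if_congr eq_comm rfl rfl]
      rw [e, hcol, col]; ring
    rw [this, mul_pow, show σ ^ 4 = (σ ^ 2) ^ 2 by ring, hσ, one_pow, one_mul]
  -- scaling
  have hscale : ∀ z : Fin N → ℝ, m z = c * blockSq k z ^ 2 := by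
    intro z
    set w : Fin N → ℝ := fun i => if k.1 ≤ i.1 then z i else 0 with hw
    have hdot : ∀ h : blockGroup N k, col k (h : ON N) ⬝ᵥ z = col k (h : ON N) ⬝ᵥ w := fun h =>
      sum_congr rfl fun i _ => by
        by_cases hi : k.1 ≤ i.1
        · simp only [hw, if_pos hi]
        · simp only [hw, if_neg hi, hcol0 h i (not_le.1 hi), zero_mul]
    have hww : w ⬝ᵥ w = blockSq k z := sum_congr rfl fun i _ => by
      simp only [hw]; split_ifs <;> ring
    have hmz : m z = m w := by simp only [hm, hdot]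
    have h0 : 0 ≤ blockSq k z := sum_nonneg fun i _ => by split_ifs <;> positivity
    rcases h0.lt_or_eq with hpos | hzero
    · set r := Real.sqrt (blockSq k z) with hr
      have hr0 : r ≠ 0 := (Real.sqrt_pos.2 hpos).ne'
      have hr2 : r * r = blockSq k z := Real.mul_self_sqrt h0
      have hu : (r⁻¹ • w) ⬝ᵥ (r⁻¹ • w) = 1 := by
        rw [smul_dotProduct, dotProduct_smul, hww, ← hr2, smul_eq_mul, smul_eq_mul]
        field_simp
      have := hunit (r⁻¹ • w) hu fun j hj => by
        simp only [hw, Pi.smul_apply, if_neg (not_le.2 hj), smul_zero]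
      simp only [hm, dotProduct_smul, smul_eq_mul, mul_pow, MeasureTheory.integral_const_mul] at this
      rw [hmz, ← hr2, show c * (r * r) ^ 2 = r ^ 4 * c by ring, ← this, hm]
      simp only
      rw [← mul_assoc, ← mul_pow, mul_inv_cancel₀ hr0, one_pow, one_mul]
    · have w0 : w = 0 := dotProduct_self_eq_zero.1 (hww.trans hzero.symm)
      rw [hmz, ← hzero]
      simp [hm, w0]
  -- the constant
  set d : ℝ := (N : ℝ) - k with hd
  set T : Finset (Fin N) := univ.filter fun i => k.1 ≤ i.1 with hT
  have hTd : (T.card : ℝ) = d := by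
    have e : T = (Finset.Ici k : Finset (Fin N)) := by
      ext i
      rw [hT, mem_filter, Finset.mem_Ici, Fin.le_def, and_iff_right (mem_univ i)]
    rw [e, Fin.card_Ici, Nat.cast_sub k.2.le]
  have hd1 : 1 ≤ d := by
    rw [hd]
    have : (k : ℝ) + 1 ≤ N := by exact_mod_cast k.2
    linarith
  have hsb : ∀ i ∈ T, ∀ t : ℝ, blockSq k (Pi.single i t) = t ^ 2 := by
    intro i hi t
    have hi' := (mem_filter.1 hi).2
    rw [blockSq, Finset.sum_eq_single i (fun l _ hl => by simp [hl]) (by simp), if_pos hi',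
      Pi.single_eq_same]
  have hint : ∀ {φ : blockGroup N k → ℝ}, Continuous φ → Integrable φ η :=
    fun hφ => integrable_cont η hφ
  have hcc : ∀ i : Fin N, Continuous fun h : blockGroup N k => col k (h : ON N) i :=
    fun i => (continuous_entry i k).comp continuous_subtype_val
  have h4 : ∀ i ∈ T, ∫ h, col k (h : ON N) i ^ 4 ∂η = c := by
    intro i hi
    have := hscale (Pi.single i 1)
    simp only [hm, dotProduct_single, mul_one, hsb i hi] at this
    simpa using this
  have h22 : ∀ i ∈ T, ∀ j ∈ T, i ≠ j →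
      ∫ h, col k (h : ON N) i ^ 2 * col k (h : ON N) j ^ 2 ∂η = c / 3 := by
    intro i hi j hj hij
    have hb : ∀ t : ℝ, t ^ 2 = 1 → blockSq k (Pi.single i 1 + Pi.single j t) = 2 := by
      intro t ht
      have e : ∀ l, (if k.1 ≤ l.1 then ((Pi.single i (1:ℝ) + Pi.single j t) : Fin N → ℝ) l ^ 2
          else 0) = (if l = i then 1 else 0) + (if l = j then 1 else 0) := by
        intro l
        by_cases hli : l = i
        · subst hli; simp [(mem_filter.1 hi).2, hij]
        by_cases hlj : l = j
        · subst hlj; simp [(mem_filter.1 hj).2, hij.symm, ht]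
        · simp [hli, hlj]
      rw [blockSq, sum_congr rfl fun l _ => e l, sum_add_distrib]
      norm_num
    have hp := hscale (Pi.single i 1 + Pi.single j 1)
    have hn := hscale (Pi.single i 1 + Pi.single j (-1))
    rw [hb 1 (by norm_num)] at hp
    rw [hb (-1) (by norm_num)] at hn
    simp only [hm, dotProduct_add, dotProduct_single, mul_one, mul_neg] at hp hn
    have hs : ∫ h, (col k (h : ON N) i + col k (h : ON N) j) ^ 4
        + (col k (h : ON N) i + -col k (h : ON N) j) ^ 4 ∂η = 8 * c := by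
      rw [integral_add (hint (((hcc i).fun_add (hcc j)).fun_pow 4))
        (hint (((hcc i).fun_add (hcc j).fun_neg).fun_pow 4)), hp, hn]
      ring
    simp_rw [show ∀ x y : ℝ, (x + y) ^ 4 + (x + -y) ^ 4 = (2 * x ^ 4 + 2 * y ^ 4)
      + 12 * (x ^ 2 * y ^ 2) from fun x y => by ring] at hs
    rw [integral_add (hint ((continuous_const.fun_mul ((hcc i).fun_pow 4)).fun_add
        (continuous_const.fun_mul ((hcc j).fun_pow 4))))
        ((hint (((hcc i).fun_pow 2).fun_mul ((hcc j).fun_pow 2))).const_mul 12),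
      integral_add ((hint ((hcc i).fun_pow 4)).const_mul 2) ((hint ((hcc j).fun_pow 4)).const_mul 2),
      MeasureTheory.integral_const_mul, MeasureTheory.integral_const_mul,
      MeasureTheory.integral_const_mul, h4 i hi, h4 j hj] at hs
    linarith
  have htot : ∀ h : blockGroup N k, ∑ i ∈ T, col k (h : ON N) i ^ 2 = 1 := by
    intro h
    rw [hT, sum_filter]
    have := col_dot (h : ON N) k k
    rw [if_pos rfl] at this
    rw [← this]
    refine sum_congr rfl fun i _ => ?_
    split_ifs with hi
    · exact sq _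
    · rw [show (h : ON N).1 i k = 0 from hcol0 h i (not_le.1 hi), zero_mul]
  have hone : ∑ i ∈ T, ∑ j ∈ T, ∫ h, col k (h : ON N) i ^ 2 * col k (h : ON N) j ^ 2 ∂η = 1 := by
    have e : ∫ h : blockGroup N k, (∑ i ∈ T, col k (h : ON N) i ^ 2) *
        (∑ i ∈ T, col k (h : ON N) i ^ 2) ∂η = 1 := by simp [htot]
    simp only [Finset.sum_mul_sum] at e
    rw [integral_finsetSum _ fun i _ => hint (continuous_finsetSum _ fun j _ =>
      ((hcc i).fun_pow 2).fun_mul ((hcc j).fun_pow 2))] at e
    rw [← e]
    exact sum_congr rfl fun i _ => (integral_finsetSum _ fun j _ =>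
      hint (((hcc i).fun_pow 2).fun_mul ((hcc j).fun_pow 2))).symm
  have hrow : ∀ i ∈ T,
      ∑ j ∈ T, ∫ h, col k (h : ON N) i ^ 2 * col k (h : ON N) j ^ 2 ∂η = c + (d - 1) * (c / 3) := by
    intro i hi
    rw [← Finset.add_sum_erase T _ hi, sum_congr rfl (fun j hj =>
      h22 i hi j (mem_of_mem_erase hj) (ne_of_mem_erase hj).symm), sum_const,
      card_erase_of_mem hi, nsmul_eq_mul, Nat.cast_sub (card_pos.2 ⟨i, hi⟩), hTd, Nat.cast_one]
    congr 1
    rw [← h4 i hi]
    congr 1
    funext h
    ring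
  rw [sum_congr rfl hrow, sum_const, nsmul_eq_mul, hTd] at hone
  have hcd : c * d ^ 2 ≤ 3 := by
    have hc0 : 0 ≤ c := integral_nonneg fun h => by positivity
    nlinarith
  show m z ≤ _
  rw [hscale, le_div_iff₀ (by positivity)]
  calc c * blockSq k z ^ 2 * d ^ 2 = c * d ^ 2 * blockSq k z ^ 2 := by ring
    _ ≤ 3 * blockSq k z ^ 2 := mul_le_mul_of_nonneg_right hcd (sq_nonneg _)

end Vale.Agent.P166
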