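import Vale.Agent.P166.SelfAvg.Martingale

/-!
The effect on the pressure of one reflection, and of one step of the martingale.
-/

open MeasureTheory Matrix Finset Function
open scoped BigOperators

namespace Vale.Agent.P166

variable {N : ℕ}

instance secondCountableBlock (k : ℕ) : SecondCountableTopology (blockGroup N k) :=
  TopologicalSpace.Subtype.secondCountableTopology _

lemma continuous_integral_right {X Y : Type*} [TopologicalSpace X] [FirstCountableTopology X]
    [LocallyCompactSpace X] [TopologicalSpace Y] [CompactSpace Y] [MeasurableSpace Y]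
    [OpensMeasurableSpace Y] [SecondCountableTopology Y] (μ : Measure Y) [IsFiniteMeasure μ]
    {F : X → Y → ℝ} (hF : Continuous (Function.uncurry F)) :
    Continuous fun x => ∫ y, F x y ∂μ := by
  simpa using continuous_parametric_integral_of_continuous (μ := μ) hF (s := Set.univ) isCompact_univ

/-- Invariant probability measures on a compact group are right invariant. -/
lemma integral_mul_right_of_left {G : Type*} [Group G] [TopologicalSpace G] [IsTopologicalGroup G]
    [CompactSpace G] [SecondCountableTopology G] [MeasurableSpace G] [BorelSpace G] (η : Measure G)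
    [IsProbabilityMeasure η] [η.IsMulLeftInvariant] (f : G → ℝ) (hf : Continuous f) (g : G) :
    ∫ h, f (h * g) ∂η = ∫ h, f h ∂η := by
  have inv_eq : ∀ φ : G → ℝ, Continuous φ → ∫ h, φ h ∂η = ∫ h, φ h⁻¹ ∂η := by
    intro φ hφ
    calc ∫ h, φ h ∂η = ∫ v, (∫ h, φ (v⁻¹ * h) ∂η) ∂η := by simp [integral_mul_left_eq_self]
      _ = ∫ h, (∫ v, φ (v⁻¹ * h) ∂η) ∂η := integral_integral_swap
          (integrable_cont (η.prod η) (f := Function.uncurry fun v h : G => φ (v⁻¹ * h))
            (hφ.comp (continuous_fst.inv.mul continuous_snd)))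
      _ = ∫ h, (∫ v, φ v⁻¹ ∂η) ∂η := by
          congr 1
          funext h
          have := integral_mul_left_eq_self (fun v : G => φ v⁻¹) h⁻¹ (μ := η)
          simpa [_root_.mul_inv_rev] using this
      _ = _ := by simp
  rw [inv_eq (fun h => f (h * g)) (hf.comp (continuous_id.mul continuous_const)), inv_eq f hf]
  conv_rhs => rw [← integral_mul_left_eq_self (fun h : G => f h⁻¹) g⁻¹]
  simp [_root_.mul_inv_rev]

/-- Averages over a larger block group absorb those over a smaller one. -/
lemma avg_tower (k : ℕ) {f : ON N → ℝ} (hf : Continuous f) (U : ON N) :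
    ∫ h : blockGroup N k, avg (k + 1) f (U * (h : ON N)) ∂blockHaar N k = avg k f U := by
  simp only [avg]
  rw [integral_integral_swap (integrable_cont _
    (f := Function.uncurry fun (h : blockGroup N k) (g : blockGroup N (k + 1)) =>
      f (U * (h : ON N) * (g : ON N)))
    (hf.comp ((continuous_const.mul (continuous_subtype_val.comp continuous_fst)).mul
      (continuous_subtype_val.comp continuous_snd))))]
  have : ∀ g : blockGroup N (k + 1),
      ∫ h : blockGroup N k, f (U * (h : ON N) * (g : ON N)) ∂blockHaar N k =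
        ∫ h : blockGroup N k, f (U * (h : ON N)) ∂blockHaar N k := by
    intro g
    have := integral_mul_right_of_left (blockHaar N k) (fun h : blockGroup N k => f (U * (h : ON N)))
      (hf.comp (continuous_const.mul continuous_subtype_val))
      ⟨(g : ON N), blockGroup_anti (Nat.le_succ k) g.2⟩
    simpa [mul_assoc] using this
  simp [this]

/-- Jensen's inequality for the square. -/
lemma sq_integral_le {X : Type*} [TopologicalSpace X] [CompactSpace X] [MeasurableSpace X]
    [OpensMeasurableSpace X] (μ : Measure X) [IsProbabilityMeasure μ] {f : X → ℝ}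
    (hf : Continuous f) : (∫ x, f x ∂μ) ^ 2 ≤ ∫ x, f x ^ 2 ∂μ := by
  set m := ∫ x, f x ∂μ
  have h : 0 ≤ ∫ x, (f x - m) ^ 2 ∂μ := integral_nonneg fun x => sq_nonneg _
  simp_rw [sub_sq] at h
  rw [integral_add (integrable_cont μ (by fun_prop)) (integrable_const _),
    integral_sub (integrable_cont μ (hf.fun_pow 2)) (integrable_cont μ (by fun_prop)),
    integral_const, probReal_univ, one_smul] at h
  have : ∫ x, 2 * f x * m ∂μ = 2 * m * m := by
    rw [MeasureTheory.integral_mul_const, MeasureTheory.integral_const_mul]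
  rw [this] at h
  nlinarith

/-- The local fields `J σ`. -/
def field (l : Fin N → ℝ) (U : ON N) (s : Fin N → Bool) : Fin N → ℝ :=
  U.1ᵀ *ᵥ fun i => l i * (U.1 *ᵥ spin s) i

/-- The Gibbs weight of a configuration. -/
noncomputable def weight (β : ℝ) (l : Fin N → ℝ) (U : ON N) (s : Fin N → Bool) : ℝ :=
  Real.exp (β / 2 * quad l U s) / part β l U

lemma weight_nonneg (β : ℝ) (l : Fin N → ℝ) (U : ON N) (s : Fin N → Bool) :
    0 ≤ weight β l U s :=
  div_nonneg (Real.exp_pos _).le (part_pos _ _ _).le

lemma sum_weight (β : ℝ) (l : Fin N → ℝ) (U : ON N) : ∑ s, weight β l U s = 1 := by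
  simp only [weight, ← sum_div]
  exact div_self (part_pos β l U).ne'

lemma continuous_mulVec' (z : Fin N → ℝ) (i : Fin N) :
    Continuous fun U : ON N => (U.1 *ᵥ z) i :=
  show Continuous fun U : ON N => ∑ j, U.1 i j * z j from
    continuous_finsetSum _ fun j _ => (continuous_entry i j).mul continuous_const

lemma continuous_quad (l : Fin N → ℝ) (s : Fin N → Bool) :
    Continuous fun U : ON N => quad l U s := by
  simp only [quad_eq]
  exact continuous_finsetSum _ fun i _ => continuous_const.mul ((continuous_mulVec' _ i).pow 2)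

lemma continuous_field (l : Fin N → ℝ) (s : Fin N → Bool) (j : Fin N) :
    Continuous fun U : ON N => field l U s j :=
  show Continuous fun U : ON N => ∑ i, U.1 i j * (l i * (U.1 *ᵥ spin s) i) from
    continuous_finsetSum _ fun i _ =>
      (continuous_entry i j).mul (continuous_const.mul (continuous_mulVec' _ i))

lemma continuous_weight (β : ℝ) (l : Fin N → ℝ) (s : Fin N → Bool) :
    Continuous fun U : ON N => weight β l U s :=
  (Real.continuous_exp.comp (continuous_const.mul (continuous_quad l s))).div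
    (continuous_finsetSum _ fun t _ =>
      Real.continuous_exp.comp (continuous_const.mul (continuous_quad l t)))
    fun U => (part_pos β l U).ne'

lemma quad_refl_sub (l : Fin N → ℝ) (U : ON N) (s : Fin N → Bool) (a : Fin N → ℝ)
    (ha : a ⬝ᵥ a = 1) :
    quad l (U * refl a ha) s - quad l U s = -4 * (a ⬝ᵥ spin s) * (a ⬝ᵥ field l U s)
      + 4 * (a ⬝ᵥ spin s) ^ 2 * ∑ i, l i * ((U.1 *ᵥ a) i) ^ 2 := by
  have hv : (U * refl a ha).1 *ᵥ spin s
      = U.1 *ᵥ spin s - (2 * (a ⬝ᵥ spin s)) • (U.1 *ᵥ a) := by
    show (U.1 * (refl a ha).1) *ᵥ spin s = _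
    rw [← mulVec_mulVec, refl_mulVec, mulVec_sub, mulVec_smul]
  have hf : a ⬝ᵥ field l U s = ∑ i, (U.1 *ᵥ a) i * (l i * (U.1 *ᵥ spin s) i) := by
    rw [field, dotProduct_mulVec, vecMul_transpose]; rfl
  rw [quad_eq, quad_eq, hv, hf, ← sum_sub_distrib, mul_sum, mul_sum, ← sum_add_distrib]
  refine sum_congr rfl fun i _ => ?_
  simp only [Pi.sub_apply, Pi.smul_apply, smul_eq_mul]
  ring

/-- Squared energy change bound for a reflection along `a`. -/
lemma quad_refl_sq (l : Fin N → ℝ) {L : ℝ} (hl : ∀ i, |l i| ≤ L) (U : ON N) (s : Fin N → Bool)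
    (a : Fin N → ℝ) (ha : a ⬝ᵥ a = 1) :
    (quad l U s - quad l (U * refl a ha) s) ^ 2 ≤
      32 * ((a ⬝ᵥ spin s) ^ 2 * (a ⬝ᵥ field l U s) ^ 2)
      + 32 * L ^ 2 * ((a ⬝ᵥ spin s) ^ 2) ^ 2 := by
  set t := a ⬝ᵥ spin s
  set q := a ⬝ᵥ field l U s
  set S := ∑ i, l i * ((U.1 *ᵥ a) i) ^ 2
  have hS : |S| ≤ L := by
    refine (abs_sum_le_sum_abs _ _).trans ?_
    calc ∑ i, |l i * ((U.1 *ᵥ a) i) ^ 2| ≤ ∑ i, L * ((U.1 *ᵥ a) i) ^ 2 :=
          sum_le_sum fun i _ => by
            rw [abs_mul, abs_of_nonneg (sq_nonneg ((U.1 *ᵥ a) i))]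
            exact mul_le_mul_of_nonneg_right (hl i) (sq_nonneg _)
      _ = L := by
          rw [← mul_sum, sum_mulVec_sq]
          have : ∑ i, a i ^ 2 = 1 := by simpa [dotProduct, ← sq] using ha
          rw [this, mul_one]
  have hS2 : S ^ 2 ≤ L ^ 2 := sq_le_sq.2 (hS.trans (le_abs_self L))
  have e : (quad l U s - quad l (U * refl a ha) s) ^ 2 = (4 * t * q - 4 * t ^ 2 * S) ^ 2 := by
    rw [← neg_sub (quad l (U * refl a ha) s), quad_refl_sub]; ring
  rw [e]
  nlinarith [sq_nonneg (4 * t * q + 4 * t ^ 2 * S),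
    mul_le_mul_of_nonneg_left hS2 (sq_nonneg (t ^ 2))]

/-- Mean square change of the pressure under a reflection. -/
lemma reflect_step (ν : Measure (ON N)) [IsProbabilityMeasure ν]
    (hν : ∀ g : ON N, ν.map (fun U => g * U) = ν) {β : ℝ} (hβ : 0 ≤ β) (l : Fin N → ℝ)
    (a : Fin N → ℝ) (ha : a ⬝ᵥ a = 1) :
    ∫ U, (pressure β l U - pressure β l (U * refl a ha)) ^ 2 ∂ν ≤
      2 * (β / (2 * N)) ^ 2 *
        ∫ U, ∑ s, weight β l U s * (quad l U s - quad l (U * refl a ha) s) ^ 2 ∂ν := by
  set R := refl a ha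
  set d : ON N → ℝ := fun U => pressure β l U - pressure β l (U * R) with hd
  have hcR : Continuous fun U : ON N => U * R := continuous_id.mul continuous_const
  have hdc : Continuous d :=
    (continuous_pressure β l).sub ((continuous_pressure β l).comp hcR)
  have hdR : ∀ U, d (U * R) = -d U := fun U => by
    simp only [hd, mul_assoc, R, refl_mul_self, mul_one]; ring
  have hsplit : ∫ U, d U ^ 2 ∂ν = 2 * ∫ U, max (d U) 0 ^ 2 ∂ν := by
    have h1 := integral_mul_right ν hν (fun U => max (d U) 0 ^ 2)
      ((hdc.max continuous_const).pow 2) R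
    simp only [hdR] at h1
    have e : ∀ U, d U ^ 2 = max (d U) 0 ^ 2 + max (-d U) 0 ^ 2 := fun U => by
      rcases le_total (d U) 0 with h | h
      · rw [max_eq_right h, max_eq_left (neg_nonneg.2 h)]; ring
      · rw [max_eq_left h, max_eq_right (neg_nonpos.2 h)]; ring
    simp_rw [e]
    rw [integral_add (integrable_cont ν ((hdc.max continuous_const).fun_pow 2))
      (integrable_cont ν ((hdc.fun_neg.max continuous_const).fun_pow 2)), h1]
    ring
  have hpt : ∀ U, max (d U) 0 ^ 2 ≤
      (β / (2 * N)) ^ 2 * ∑ s, weight β l U s * (quad l U s - quad l (U * R) s) ^ 2 := by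
    intro U
    set w := weight β l U
    set δ := fun s => quad l U s - quad l (U * R) s
    set M := ∑ s, w s * δ s with hM
    have hj := convexOn_exp.map_sum_le (t := (univ : Finset (Fin N → Bool))) (w := w)
      (p := fun s => -(β / 2 * δ s)) (fun s _ => weight_nonneg _ _ _ s) (sum_weight β l U)
      (fun _ _ => Set.mem_univ _)
    simp only [smul_eq_mul] at hj
    have e2 : ∑ s, w s * Real.exp (-(β / 2 * δ s)) = part β l (U * R) / part β l U := by
      simp only [w, weight, δ, part, Finset.sum_div]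
      refine sum_congr rfl fun s _ => ?_
      rw [div_mul_eq_mul_div, ← Real.exp_add]
      ring_nf
    rw [e2, ← Real.le_log_iff_exp_le (div_pos (part_pos _ _ _) (part_pos _ _ _)),
      Real.log_div (part_pos _ _ _).ne' (part_pos _ _ _).ne'] at hj
    have e1 : ∑ s, w s * -(β / 2 * δ s) = -(β / 2 * M) := by
      rw [hM, mul_sum, ← sum_neg_distrib]
      exact sum_congr rfl fun s _ => by ring
    rw [e1] at hj
    have hdle : d U ≤ β / (2 * N) * M := by
      simp only [hd, pressure_eq, ← sub_div]
      rw [show β / (2 * N) * M = β / 2 * M / N by ring]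
      exact div_le_div_of_nonneg_right (by linarith) (Nat.cast_nonneg N)
    have hM2 : M ^ 2 ≤ ∑ s, w s * δ s ^ 2 := by
      have h0 : 0 ≤ ∑ s, w s * (δ s - M) ^ 2 :=
        sum_nonneg fun s _ => mul_nonneg (weight_nonneg _ _ _ s) (sq_nonneg _)
      have : ∑ s, w s * (δ s - M) ^ 2 = (∑ s, w s * δ s ^ 2) - 2 * M * M + M ^ 2 := by
        have e : ∑ s, w s * (δ s - M) ^ 2
            = ∑ s, ((w s * δ s ^ 2 - (2 * M) * (w s * δ s)) + M ^ 2 * w s) :=
          sum_congr rfl fun s _ => by ring
        rw [e, sum_add_distrib, sum_sub_distrib, ← mul_sum, ← mul_sum, ← hM, sum_weight β l U]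
        ring
      nlinarith
    have hc : 0 ≤ β / (2 * N) := by positivity
    calc max (d U) 0 ^ 2 ≤ (β / (2 * N) * |M|) ^ 2 :=
          pow_le_pow_left₀ (le_max_right _ _)
            (max_le (hdle.trans (mul_le_mul_of_nonneg_left (le_abs_self M) hc))
              (mul_nonneg hc (abs_nonneg M))) 2
      _ ≤ _ := by
          rw [mul_pow, sq_abs]
          exact mul_le_mul_of_nonneg_left hM2 (sq_nonneg _)
  rw [hsplit, mul_assoc, ← MeasureTheory.integral_const_mul ((β / (2 * (N:ℝ))) ^ 2)]
  refine mul_le_mul_of_nonneg_left (integral_mono (integrable_cont ν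
    ((hdc.max continuous_const).fun_pow 2)) (integrable_cont ν (continuous_const.fun_mul
      (continuous_finsetSum _ fun s _ => (continuous_weight β l s).fun_mul
        (((continuous_quad l s).fun_sub ((continuous_quad l s).comp hcR)).fun_pow 2)))) hpt)
    (by norm_num)

lemma refl_conj (g : ON N) (a : Fin N → ℝ) (ha : a ⬝ᵥ a = 1)
    (ha' : (g.1ᵀ *ᵥ a) ⬝ᵥ (g.1ᵀ *ᵥ a) = 1) :
    refl a ha * g = g * refl (g.1ᵀ *ᵥ a) ha' := by
  have hg : g.1 * g.1ᵀ = 1 := by
    ext i j
    simpa [Matrix.mul_apply, Matrix.one_apply] using row_dot g i j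
  apply Subtype.ext
  show (1 - (2 : ℝ) • vecMulVec a a) * g.1
    = g.1 * (1 - (2 : ℝ) • vecMulVec (g.1ᵀ *ᵥ a) (g.1ᵀ *ᵥ a))
  rw [sub_mul, mul_sub, one_mul, mul_one, Matrix.smul_mul, Matrix.mul_smul, vecMulVec_mul,
    mul_vecMulVec, mulVec_mulVec, hg, one_mulVec, mulVec_transpose]

/-- The bound on a squared energy change along the direction attached to a column. -/
def stepBound (L : ℝ) (k : Fin N) (l : Fin N → ℝ) (U : ON N) (s : Fin N → Bool) (h : ON N) : ℝ :=
  32 * ((1 + (col k h ⬝ᵥ spin s) ^ 2) * (field l U s k ^ 2 + (col k h ⬝ᵥ field l U s) ^ 2))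
    + 32 * L ^ 2 * (1 + (col k h ⬝ᵥ spin s) ^ 2) ^ 2

lemma spin_sq (s : Fin N → Bool) (i : Fin N) : spin s i ^ 2 = 1 := by
  simp only [spin]; split_ifs <;> norm_num

attribute [local irreducible] pressure refl avg weight field blockHaar

/-- Gibbs average of the step bound, averaged over the disorder. -/
noncomputable def stepMean (ν : Measure (ON N)) (β : ℝ) (l : Fin N → ℝ) (L : ℝ) (k : Fin N)
    (h : ON N) : ℝ :=
  ∫ U, (∑ s, weight β l U s * stepBound L k l U s h) ∂ν

lemma continuous_col (k : Fin N) (z : Fin N → ℝ) :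
    Continuous fun h : ON N => col k h ⬝ᵥ z :=
  continuous_finsetSum _ fun i _ => (continuous_entry i k).mul continuous_const

lemma continuous_stepBound (L : ℝ) (k : Fin N) (l : Fin N → ℝ) (s : Fin N → Bool) :
    Continuous fun p : ON N × ON N => stepBound L k l p.2 s p.1 := by
  have h1 : Continuous fun p : ON N × ON N => 1 + (col k p.1 ⬝ᵥ spin s) ^ 2 :=
    continuous_const.add (((continuous_col k _).comp continuous_fst).pow 2)
  have h2 : Continuous fun p : ON N × ON N => col k p.1 ⬝ᵥ field l p.2 s :=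
    continuous_finsetSum _ fun i _ =>
      ((continuous_entry i k).comp continuous_fst).mul
        ((continuous_field l s i).comp continuous_snd)
  exact (continuous_const.mul (h1.mul ((((continuous_field l s k).comp continuous_snd).pow 2).add
    (h2.pow 2)))).add (continuous_const.mul (h1.pow 2))

attribute [local irreducible] stepBound

lemma continuous_stepSum (β L : ℝ) (k : Fin N) (l : Fin N → ℝ) :
    Continuous (Function.uncurry fun h U : ON N =>
      ∑ s, weight β l U s * stepBound L k l U s h) :=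
  continuous_finsetSum _ fun s _ =>
    ((continuous_weight β l s).comp continuous_snd).mul (continuous_stepBound L k l s)

lemma continuous_stepMean (ν : Measure (ON N)) [IsProbabilityMeasure ν] (β : ℝ) (l : Fin N → ℝ)
    (L : ℝ) (k : Fin N) : Continuous (stepMean ν β l L k) :=
  continuous_integral_right ν (continuous_stepSum β L k l)

lemma conj_step (ν : Measure (ON N)) [IsProbabilityMeasure ν]
    (hν : ∀ g : ON N, ν.map (fun U => g * U) = ν) {β : ℝ} (hβ : 0 ≤ β) (l : Fin N → ℝ) {L : ℝ}
    (hl : ∀ i, |l i| ≤ L) (k : Fin N) (h : ON N) (a : Fin N → ℝ) (ha : a ⬝ᵥ a = 1)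
    (hbound : ∀ z : Fin N → ℝ, (a ⬝ᵥ z) ^ 2 ≤ z k ^ 2 + (col k h ⬝ᵥ z) ^ 2)
    (g : ON N) (hg : g ∈ blockGroup N (k.1 + 1)) :
    ∫ U, (pressure β l (U * g) - pressure β l (U * refl a ha * g)) ^ 2 ∂ν ≤
      2 * (β / (2 * N)) ^ 2 * stepMean ν β l L k (g⁻¹ * h) := by
  have hadot : ∀ z, (g.1ᵀ *ᵥ a) ⬝ᵥ z = a ⬝ᵥ (g.1 *ᵥ z) := fun z => by
    rw [mulVec_transpose, dotProduct_mulVec]
  have ha1 : ∑ i, a i ^ 2 = 1 := by simpa [dotProduct, ← sq] using ha
  have ha' : (g.1ᵀ *ᵥ a) ⬝ᵥ (g.1ᵀ *ᵥ a) = 1 := by
    simpa [dotProduct, ← sq, ha1] using sum_transpose_mulVec_sq g a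
  have hf := continuous_pressure β l
  have hGeq : ∫ U, (pressure β l (U * g) - pressure β l (U * refl a ha * g)) ^ 2 ∂ν
      = ∫ U, (pressure β l U - pressure β l (U * refl (g.1ᵀ *ᵥ a) ha')) ^ 2 ∂ν := by
    rw [← integral_mul_right ν hν
      (fun U => (pressure β l U - pressure β l (U * refl (g.1ᵀ *ᵥ a) ha')) ^ 2)
      ((hf.sub (hf.comp (continuous_id.mul continuous_const))).pow 2) g]
    congr 1
    funext U
    rw [mul_assoc U (refl a ha) g, refl_conj g a ha ha', ← mul_assoc]
  rw [hGeq]
  refine (reflect_step ν hν hβ l _ ha').trans (mul_le_mul_of_nonneg_left ?_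
    (mul_nonneg zero_le_two (sq_nonneg _)))
  have hc1 : Continuous fun U : ON N => ∑ s, weight β l U s *
      (quad l U s - quad l (U * refl (g.1ᵀ *ᵥ a) ha') s) ^ 2 :=
    continuous_finsetSum _ fun s _ => (continuous_weight β l s).mul
      (((continuous_quad l s).sub ((continuous_quad l s).comp
        (continuous_id.mul continuous_const))).pow 2)
  have hc2 : Continuous fun U : ON N => ∑ s, weight β l U s * stepBound L k l U s (g⁻¹ * h) :=
    (continuous_stepSum β L k l).comp (continuous_const.prodMk continuous_id)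
  unfold stepMean
  refine integral_mono (integrable_cont ν hc1) (integrable_cont ν hc2) fun U =>
    sum_le_sum fun s _ => mul_le_mul_of_nonneg_left ?_ (weight_nonneg _ _ _ s)
  have hkk : ∀ i, i ≠ k → g.1 k i = 0 := fun i hi => apply_eq_zero hg (Nat.lt_succ_self _) hi
  have hk1 : g.1 k k * g.1 k k = 1 := by
    have := row_dot g k k
    rwa [if_pos rfl, Finset.sum_eq_single k (fun i _ hi => by rw [hkk i hi, zero_mul])
      (by simp)] at this
  have hz : ∀ z : Fin N → ℝ,
      ((g.1ᵀ *ᵥ a) ⬝ᵥ z) ^ 2 ≤ z k ^ 2 + (col k (g⁻¹ * h) ⬝ᵥ z) ^ 2 := by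
    intro z
    rw [hadot]
    refine (hbound (g.1 *ᵥ z)).trans (le_of_eq ?_)
    have h1 : (g.1 *ᵥ z) k = g.1 k k * z k := by
      rw [mulVec, dotProduct]
      exact Finset.sum_eq_single k (fun i _ hi => by rw [hkk i hi, zero_mul]) (by simp)
    have h2 : col k (g⁻¹ * h) ⬝ᵥ z = col k h ⬝ᵥ (g.1 *ᵥ z) := by
      rw [dotProduct_mulVec]
      refine congrArg (· ⬝ᵥ z) (funext fun i => ?_)
      show ((g⁻¹).1 * h.1) i k = _
      simp only [Matrix.mul_apply, vecMul, dotProduct, col, inv_apply', mul_comm]
    rw [h1, h2]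
    linear_combination (z k ^ 2) * hk1
  refine (quad_refl_sq l hl U s _ ha').trans ?_
  have h1 := hz (spin s)
  have h2 := hz (field l U s)
  rw [spin_sq] at h1
  unfold stepBound
  gcongr

lemma one_step (ν : Measure (ON N)) [IsProbabilityMeasure ν]
    (hν : ∀ g : ON N, ν.map (fun U => g * U) = ν) {β : ℝ} (hβ : 0 ≤ β) (l : Fin N → ℝ) {L : ℝ}
    (hl : ∀ i, |l i| ≤ L) (k : Fin N) (h : blockGroup N k.1) :
    ∫ U, (avg (k.1 + 1) (pressure β l) U
        - avg (k.1 + 1) (pressure β l) (U * (h : ON N))) ^ 2 ∂ν ≤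
      ∫ g : blockGroup N (k.1 + 1),
        2 * (β / (2 * N)) ^ 2 * stepMean ν β l L k ((g : ON N)⁻¹ * (h : ON N))
          ∂blockHaar N (k.1 + 1) := by
  have hf := continuous_pressure β l
  have hA1 := continuous_avg (k.1 + 1) hf
  obtain ⟨a, ha, hak, ⟨σ, hσ, hcola⟩, hbound⟩ := exists_refl k (col k (h : ON N))
    (by simpa [col, dotProduct] using col_dot (h : ON N) k k)
    (fun j hj => apply_eq_zero h.2 hj fun e => by simp [e] at hj)
  set R := refl a ha with hR
  have hRh : R * (h : ON N) ∈ blockGroup N (k.1 + 1) := by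
    intro i j hj hij
    rcases Nat.lt_succ_iff_lt_or_eq.1 hj with hlt | heq
    · exact (blockGroup N k.1).mul_mem (refl_mem a ha hak) h.2 i j hlt hij
    · obtain rfl : j = k := Fin.ext heq
      show (R.1 * (h : ON N).1) i j = 0
      have hR2 : (R * R).1 i j = 0 := by
        rw [hR, refl_mul_self]; simp [hij]
      change (R.1 * R.1) i j = 0 at hR2
      rw [Matrix.mul_apply] at hR2 ⊢
      have e : ∑ q, R.1 i q * (h : ON N).1 q j = σ * ∑ q, R.1 i q * R.1 q j := by
        rw [mul_sum]
        refine sum_congr rfl fun q _ => ?_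
        rw [hcola q, col]
        linear_combination (-(R.1 i q * (h : ON N).1 q j)) * hσ
      rw [e, hR2, mul_zero]
  have hDeq : ∀ U, avg (k.1 + 1) (pressure β l) (U * (h : ON N))
      = avg (k.1 + 1) (pressure β l) (U * R) := fun U => by
    rw [show U * (h : ON N) = U * R * (R * (h : ON N)) by
      rw [mul_assoc, ← mul_assoc R, hR, refl_mul_self, one_mul], avg_mul _ _ _ hRh]
  simp only [hDeq]
  set G : ON N → blockGroup N (k.1 + 1) → ℝ :=
    fun U g => (pressure β l (U * (g : ON N)) - pressure β l (U * R * (g : ON N))) ^ 2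
  have hGc : Continuous (Function.uncurry G) :=
    ((hf.comp (continuous_fst.mul (continuous_subtype_val.comp continuous_snd))).sub
      (hf.comp ((continuous_fst.mul continuous_const).mul
        (continuous_subtype_val.comp continuous_snd)))).pow 2
  have hjen : ∀ U, (avg (k.1 + 1) (pressure β l) U - avg (k.1 + 1) (pressure β l) (U * R)) ^ 2 ≤
      ∫ g, G U g ∂blockHaar N (k.1 + 1) := by
    intro U
    have hc1 : Continuous fun g : blockGroup N (k.1 + 1) => pressure β l (U * (g : ON N)) :=
      hf.comp (continuous_const.mul continuous_subtype_val)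
    have hc2 : Continuous fun g : blockGroup N (k.1 + 1) => pressure β l (U * R * (g : ON N)) :=
      hf.comp (continuous_const.mul continuous_subtype_val)
    simp only [avg, G]
    rw [← integral_sub (integrable_cont _ hc1) (integrable_cont _ hc2)]
    exact sq_integral_le _ (hc1.fun_sub hc2)
  refine (integral_mono (integrable_cont ν ((hA1.fun_sub
    (hA1.comp (continuous_id.mul continuous_const))).fun_pow 2))
    (integrable_cont ν (continuous_integral_right _ hGc)) hjen).trans ?_
  rw [integral_integral_swap (integrable_cont _ hGc)]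
  refine integral_mono (integrable_cont _ (continuous_integral_right ν
    (F := fun g U => G U g) (hGc.comp continuous_swap))) (integrable_cont _ ?_) fun g => ?_
  · exact continuous_const.mul ((continuous_stepMean ν β l L k).comp
      (continuous_subtype_val.inv.mul continuous_const))
  · exact conj_step ν hν hβ l hl k _ a ha hbound _ g.2

/-- Mean square of one martingale increment. -/
lemma increment_le (ν : Measure (ON N)) [IsProbabilityMeasure ν]
    (hν : ∀ g : ON N, ν.map (fun U => g * U) = ν) {β : ℝ} (hβ : 0 ≤ β) (l : Fin N → ℝ) {L : ℝ}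
    (hl : ∀ i, |l i| ≤ L) (k : Fin N) :
    ∫ U, (avg (k.1 + 1) (pressure β l) U - avg k.1 (pressure β l) U) ^ 2 ∂ν ≤
      2 * (β / (2 * N)) ^ 2 * ∫ U, (∑ s, weight β l U s *
        ∫ h, stepBound L k l U s (h : ON N) ∂blockHaar N k.1) ∂ν := by
  have hf := continuous_pressure β l
  have hA1 := continuous_avg (k.1 + 1) hf
  set η := blockHaar N k.1
  set c := 2 * (β / (2 * (N:ℝ))) ^ 2
  set Φ := stepMean ν β l L k
  have hΦc : Continuous Φ := continuous_stepMean ν β l L k
  set D : blockGroup N k.1 → ON N → ℝ := fun h U =>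
    (avg (k.1 + 1) (pressure β l) U - avg (k.1 + 1) (pressure β l) (U * (h : ON N))) ^ 2
  have hDc : Continuous (Function.uncurry D) :=
    ((hA1.comp continuous_snd).sub
      (hA1.comp (continuous_snd.mul (continuous_subtype_val.comp continuous_fst)))).pow 2
  have hpt : ∀ U, (avg (k.1 + 1) (pressure β l) U - avg k.1 (pressure β l) U) ^ 2 ≤
      ∫ h, D h U ∂η := by
    intro U
    have hc : Continuous fun h : blockGroup N k.1 =>
        avg (k.1 + 1) (pressure β l) (U * (h : ON N)) :=
      hA1.comp (continuous_const.mul continuous_subtype_val)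
    have := sq_integral_le η
      (continuous_const.fun_sub (f := fun _ => avg (k.1 + 1) (pressure β l) U) hc)
    rwa [integral_sub (integrable_const _) (integrable_cont η hc), avg_tower _ hf, integral_const,
      probReal_univ, one_smul] at this
  have hFc : Continuous (Function.uncurry fun (h : blockGroup N k.1)
      (g : blockGroup N (k.1 + 1)) => c * Φ ((g : ON N)⁻¹ * (h : ON N))) :=
    continuous_const.mul (hΦc.comp ((continuous_subtype_val.comp continuous_snd).inv.mul
      (continuous_subtype_val.comp continuous_fst)))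
  calc ∫ U, (avg (k.1 + 1) (pressure β l) U - avg k.1 (pressure β l) U) ^ 2 ∂ν
      ≤ ∫ U, (∫ h, D h U ∂η) ∂ν :=
        integral_mono (integrable_cont ν ((hA1.fun_sub (continuous_avg k.1 hf)).fun_pow 2))
          (integrable_cont ν (continuous_integral_right η (F := fun U h => D h U)
            (hDc.comp continuous_swap))) hpt
    _ = ∫ h, (∫ U, D h U ∂ν) ∂η :=
        integral_integral_swap (integrable_cont _ (hDc.comp continuous_swap))
    _ ≤ ∫ h, (∫ g : blockGroup N (k.1 + 1), c * Φ ((g : ON N)⁻¹ * (h : ON N))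
          ∂blockHaar N (k.1 + 1)) ∂η :=
        integral_mono (integrable_cont η (continuous_integral_right ν hDc))
          (integrable_cont η (continuous_integral_right _ hFc)) (one_step ν hν hβ l hl k)
    _ = ∫ g : blockGroup N (k.1 + 1), (∫ h, c * Φ ((g : ON N)⁻¹ * (h : ON N)) ∂η)
          ∂blockHaar N (k.1 + 1) := integral_integral_swap (integrable_cont _ hFc)
    _ = c * ∫ h : blockGroup N k.1, Φ (h : ON N) ∂η := by
        have : ∀ g : blockGroup N (k.1 + 1), ∫ h, Φ ((g : ON N)⁻¹ * (h : ON N)) ∂η
            = ∫ h : blockGroup N k.1, Φ (h : ON N) ∂η := fun g => by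
          have := integral_mul_left_eq_self (μ := η) (fun h : blockGroup N k.1 => Φ (h : ON N))
            ⟨(g : ON N)⁻¹, (blockGroup N k.1).inv_mem (blockGroup_anti (Nat.le_succ _) g.2)⟩
          simpa using this
        simp [MeasureTheory.integral_const_mul, this]
    _ = _ := by
        congr 1
        simp only [Φ, stepMean]
        rw [integral_integral_swap (integrable_cont _
          (f := Function.uncurry fun (h : blockGroup N k.1) U =>
            ∑ s, weight β l U s * stepBound L k l U s (h : ON N))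
          ((continuous_stepSum β L k l).comp
            ((continuous_subtype_val.comp continuous_fst).prodMk continuous_snd)))]
        congr 1
        funext U
        have hi : ∀ s : Fin N → Bool, Continuous fun x : blockGroup N k.1 =>
            weight β l U s * stepBound L k l U s (x : ON N) := fun s =>
          continuous_const.mul ((continuous_stepBound L k l s).comp
            (continuous_subtype_val.prodMk (continuous_const (y := U))))
        rw [integral_finsetSum _ fun s _ => integrable_cont η (hi s)]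
        exact sum_congr rfl fun s _ => MeasureTheory.integral_const_mul _ _

end Vale.Agent.P166
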